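import Vale.Agent.P221.Defs
import Mathlib.Topology.Algebra.Monoid
import Mathlib.Topology.Compactness.Compact
import Mathlib.Data.ZMod.Basic
import Mathlib.Data.Finsupp.Interval

/-!
# P221 (A3): `lim¹ = 0` by compactness
-/

open MvPolynomial

namespace Vale.Agent.P221

namespace H521

lemma one_le_wV {p : ℕ} (hp : 2 ≤ p) (n : ℕ) (a : Fin n) : 1 ≤ wV p n a := by
  unfold wV
  have h1 : (2 : ℤ) ≤ (p : ℤ) := by exact_mod_cast hp
  have h2 : (2 : ℤ) ≤ (p : ℤ) ^ ((a : ℕ) + 1) := by
    calc (2 : ℤ) ≤ (p : ℤ) := h1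
      _ = (p : ℤ) ^ 1 := (pow_one _).symm
      _ ≤ (p : ℤ) ^ ((a : ℕ) + 1) := pow_le_pow_right₀ (by omega) (by omega)
  omega

lemma finite_weight {p : ℕ} (hp : 2 ≤ p) (n : ℕ) (d : ℤ) :
    Set.Finite {m : Fin n →₀ ℕ | Finsupp.weight (wV p n) m = d} := by
  refine Set.Finite.subset (Set.finite_Iic (Finsupp.equivFunOnFinite.symm fun _ => d.toNat)) ?_
  intro m hm
  simp only [Set.mem_ofPred_eq] at hm
  rw [Set.mem_Iic]
  intro i
  have h : (m i : ℤ) ≤ d := by
    rw [← hm, Finsupp.weight_apply, Finsupp.sum_fintype _ _ (by simp)]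
    calc (m i : ℤ) ≤ m i • wV p n i := by
          rw [nsmul_eq_mul]
          have := one_le_wV hp n i
          nlinarith [Int.natCast_nonneg (m i)]
      _ ≤ ∑ j, m j • wV p n j := by
          refine Finset.single_le_sum (f := fun j => m j • wV p n j) (fun j _ => ?_)
            (Finset.mem_univ i)
          have := one_le_wV hp n j
          exact nsmul_nonneg (by omega) _
  simp only [Finsupp.equivFunOnFinite_symm_apply_apply]
  omega

lemma finite_hom {p : ℕ} (hp : 2 ≤ p) (n : ℕ) (d : ℤ) :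
    Finite {f : MvPolynomial (Fin n) (ZMod p) // IsWeightedHomogeneous (wV p n) f d} := by
  have : NeZero p := ⟨by omega⟩
  have : Finite {m : Fin n →₀ ℕ | Finsupp.weight (wV p n) m = d} := (finite_weight hp n d).to_subtype
  refine Finite.of_injective
    (β := {m : Fin n →₀ ℕ | Finsupp.weight (wV p n) m = d} → ZMod p)
    (fun f m => coeff m.1 f.1) ?_
  intro f g hfg
  refine Subtype.ext ?_
  ext m
  by_cases hm : Finsupp.weight (wV p n) m = d
  · exact congrFun hfg ⟨m, hm⟩
  · have h1 : coeff m f.1 = 0 := by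
      by_contra hc
      exact hm (f.2 hc)
    have h2 : coeff m g.1 = 0 := by
      by_contra hc
      exact hm (g.2 hc)
    rw [h1, h2]

lemma op_sub {n p : ℕ} (f : MvPolynomial ℕ (MvPolynomial (Fin n) (ZMod p)))
    (φ ψ : Fnl n (ZMod p)) : op f (φ - ψ) = op f φ - op f ψ := by
  funext E
  simp only [op, Pi.sub_apply, mul_sub, Finset.sum_sub_distrib]

lemma op_add {n p : ℕ} (f : MvPolynomial ℕ (MvPolynomial (Fin n) (ZMod p)))
    (φ ψ : Fnl n (ZMod p)) : op f (φ + ψ) = op f φ + op f ψ := by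
  funext E
  simp only [op, Pi.add_apply, mul_add, Finset.sum_add_distrib]

lemma isDeg_sub3 {n p : ℕ} {t : ℤ} {φ ψ : Fnl n (ZMod p)} (h1 : IsDeg p t φ) (h2 : IsDeg p t ψ) :
    IsDeg p t (φ - ψ) := fun E => by
  rw [← mem_weightedHomogeneousSubmodule]
  exact Submodule.sub_mem _ (h1 E) (h2 E)

lemma isDeg_add3 {n p : ℕ} {t : ℤ} {φ ψ : Fnl n (ZMod p)} (h1 : IsDeg p t φ) (h2 : IsDeg p t ψ) :
    IsDeg p t (φ + ψ) := fun E => by
  rw [← mem_weightedHomogeneousSubmodule]
  exact Submodule.add_mem _ (h1 E) (h2 E)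

lemma isDeg_zero3 {n p : ℕ} {t : ℤ} : IsDeg p t (0 : Fnl n (ZMod p)) := fun E => by
  rw [← mem_weightedHomogeneousSubmodule]
  exact Submodule.zero_mem _

end H521

open H521

theorem specA3 (p n : ℕ) (hp : 2 ≤ p) : SpecA3 p n := by
  intro ρ t φ hφ hρ
  classical
  -- partial sums
  let s : ℕ → Fnl n (ZMod p) := fun m => ∑ i ∈ Finset.range m, φ i
  have hs0 : s 0 = 0 := by simp [s]
  have hss : ∀ m, s (m + 1) = s m + φ m := fun m => Finset.sum_range_succ _ _
  have hsdeg : ∀ m, IsDeg p t (s m) := by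
    intro m
    induction m with
    | zero => rw [hs0]; exact isDeg_zero3
    | succ m ih => rw [hss]; exact isDeg_add3 ih (hφ m)
  let Y : (ℕ →₀ ℕ) → Type := fun E =>
    {f : MvPolynomial (Fin n) (ZMod p) // IsWeightedHomogeneous (wV p n) f (t + dT p E)}
  have : ∀ E, Finite (Y E) := fun E => finite_hom hp n _
  let : ∀ E, TopologicalSpace (Y E) := fun _ => ⊥
  have : ∀ E, DiscreteTopology (Y E) := fun _ => ⟨rfl⟩
  have : ∀ E, CompactSpace (Y E) := fun E => Finite.compactSpace
  let : TopologicalSpace (MvPolynomial (Fin n) (ZMod p)) := ⊥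
  have : DiscreteTopology (MvPolynomial (Fin n) (ZMod p)) := ⟨rfl⟩
  have : ContinuousAdd (MvPolynomial (Fin n) (ZMod p)) := ⟨continuous_of_discreteTopology⟩
  have : CompactSpace (∀ E, Y E) := inferInstance
  let val : (∀ E, Y E) → Fnl n (ZMod p) := fun x E => (x E).1
  let K : ℕ → Set (∀ E, Y E) := fun m => {x | ∀ j < m, op (ρ j) (val x - s m) = 0}
  have hK : ∀ m, IsClosed (K m) := by
    intro m
    have : K m = ⋂ j, ⋂ (_ : j < m), ⋂ E, {x | op (ρ j) (val x - s m) E = 0} := by
      ext x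
      simp only [K, Set.mem_ofPred_eq, Set.mem_iInter, funext_iff, Pi.zero_apply]
    rw [this]
    refine isClosed_iInter fun j => isClosed_iInter fun _ => isClosed_iInter fun E => ?_
    refine isClosed_eq ?_ continuous_const
    unfold op
    refine continuous_finsetSum _ fun E' _ => ?_
    have h1 : Continuous fun x : (∀ E, Y E) => x (E + E') := continuous_apply _
    exact (continuous_of_discreteTopology (f := fun y : Y (E + E') =>
      (ρ j).coeff E' * (y.1 - s m (E + E')))).comp h1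
  have hne : ∀ m, (K m).Nonempty := by
    intro m
    refine ⟨fun E => ⟨s m E, hsdeg m E⟩, ?_⟩
    intro j _
    have : val (fun E => ⟨s m E, hsdeg m E⟩) - s m = 0 := by
      funext E
      simp [val]
    rw [this]
    funext E
    simp [op]
  have hmono : ∀ m, K (m + 1) ⊆ K m := by
    intro m x hx j hj
    have h1 := hx j (by omega)
    have h2 := hρ m j hj
    have h3 : val x - s m = (val x - s (m + 1)) + φ m := by rw [hss]; abel
    rw [h3, op_add, h1, h2, add_zero]
  obtain ⟨x, hx⟩ := IsCompact.nonempty_iInter_of_sequence_nonempty_isCompact_isClosed K hmono hne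
    ((hK 0).isCompact) hK
  rw [Set.mem_iInter] at hx
  have hxdeg : IsDeg p t (val x) := fun E => (x E).2
  refine ⟨fun m => val x - s m, fun m => isDeg_sub3 hxdeg (hsdeg m), fun m j hj => hx m j hj, ?_⟩
  intro m
  simp only
  rw [hss]
  abel

end Vale.Agent.P221
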