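import Vale.Agent.P221.St.Statement
import Vale.Agent.P251.S.TensorShift

/-!
# P221: thick subcategories and tensor products

* `thick_trans : Thick B Y → Thick Y X → Thick B X`;
* `thick_ten : Thick F one → Thick (ten X F) X`, `thick_ten' : Thick F one → Thick (ten F X) X`;
* `thick_of_ten` : if `F` generates the unit and `X ⊗ F` lies in `Thick B`, then so does `X`.
-/

open CategoryTheory MonoidalCategory Limits Pretriangulated

namespace Vale.Agent.P221.H521

open Vale.Agent.P251.St Vale.Agent.P251.St.SHCat Vale.Agent.P221.St

variable {T : SHCat}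

theorem thick_of_iso {B X Y : T.C} (e : X ≅ Y) (h : Thick B X) : Thick B Y :=
  Thick.retract e.inv e.hom e.inv_hom_id h

/-- triangulated functors preserve thick subcategories -/
theorem thick_map (F : T.C ⥤ T.C) [F.CommShift ℤ] [F.IsTriangulated] {B X : T.C}
    (h : Thick B X) : Thick (F.obj B) (F.obj X) := by
  induction h with
  | base => exact Thick.base
  | zero hX =>
    refine Thick.zero ?_
    change 𝟙 (F.obj _) = 0
    rw [← F.map_id]
    exact (congrArg F.map hX).trans (F.map_zero _ _)
  | susp k _ ih => exact thick_of_iso ((F.commShiftIso k).app _).symm (Thick.susp k ih)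
  | cof hd _ _ ih1 ih2 => exact Thick.cof (F.map_distinguished _ hd) ih1 ih2
  | retract i r hir _ ih =>
    refine Thick.retract (F.map i) (F.map r) ?_ ih
    change F.map i ≫ F.map r = 𝟙 (F.obj _)
    rw [← F.map_comp]
    exact (congrArg F.map hir).trans (F.map_id _)

/-- transitivity -/
theorem thick_trans {B Y X : T.C} (h1 : Thick B Y) (h2 : Thick Y X) : Thick B X := by
  induction h2 with
  | base => exact h1
  | zero hX => exact Thick.zero hX
  | susp k _ ih => exact Thick.susp k ih
  | cof hd _ _ ih1 ih2 => exact Thick.cof hd ih1 ih2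
  | retract i r hir _ ih => exact Thick.retract i r hir ih

/-- if `F` generates the unit, then `X ⊗ F` generates `X` -/
theorem thick_ten {F : T.C} (h : Thick F T.one) (X : T.C) : Thick (ten X F) X :=
  thick_of_iso (ρ_ X) (thick_map (tensorLeft X) h)

/-- if `F` generates the unit, then `F ⊗ X` generates `X` -/
theorem thick_ten' {F : T.C} (h : Thick F T.one) (X : T.C) : Thick (ten F X) X :=
  thick_of_iso (λ_ X) (thick_map (tensorRight X) h)

/-- `X ∈ Thick B` if `X ⊗ F ∈ Thick B` for an `F` which generates the unit -/
theorem thick_of_ten {B F X : T.C} (h : Thick F T.one) (hX : Thick B (ten X F)) : Thick B X :=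
  thick_trans hX (thick_ten h X)

theorem thick_of_ten' {B F X : T.C} (h : Thick F T.one) (hX : Thick B (ten F X)) : Thick B X :=
  thick_trans hX (thick_ten' h X)

/-- the extension of a theorem on `IsBPFinite` objects to the objects which become such after the
tensor product with an object which generates the unit -/
theorem thick_of_finite_ten {S : Susp T} {p n : ℕ} {B : T.C}
    (hT : ∀ Y : T.C, IsBPFinite S p n Y → Thick B Y) {X : T.C}
    (h : ∃ F : T.C, Thick F T.one ∧ (IsBPFinite S p n (ten X F) ∨ IsBPFinite S p n (ten F X))) :
    Thick B X := by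
  obtain ⟨F, hF, h1 | h1⟩ := h
  · exact thick_of_ten hF (hT _ h1)
  · exact thick_of_ten' hF (hT _ h1)

/-- closed form: the class of all `X` which become members of `K` after the tensor product with an
`F` which generates the unit; more generally `X ∈ Thick B` if `X ∈ Thick Y` for some `Y` of the
class -/
theorem thick_of_mem {S : Susp T} {p n : ℕ} {B : T.C}
    (hT : ∀ Y : T.C, IsBPFinite S p n Y → Thick B Y) {X Y : T.C} (hY : IsBPFinite S p n Y)
    (h : Thick Y X) : Thick B X := thick_trans (hT Y hY) h

end Vale.Agent.P221.H521
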