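import Vale.Agent.P221.H521.Base

/-!
# P221: the modules `MC P`, `RG P'` and the theorem `kk_MC`
-/

open MvPolynomial

namespace Vale.Agent.P221

open Vale.Agent.P251.F Vale.Agent.P217

variable {p n : ℕ} [hp : Fact p.Prime]

/-- `k[v, b]` as a module over `k[Y_0, Y_1, …]`, through the law `F` -/
noncomputable def Form.MC (h3 : SpecB3 p n) (P : Form p n) : GM (ZMod p) :=
  GM.ofPoly (wVB p n) (fun m => yF p P.F m) (h3 P)

/-- `k[v]` as a module over `k[Y_0, Y_1, …]`, `Y_m ↦ pol m` -/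
noncomputable def Form.RG (P : Form p n) : GM (ZMod p) :=
  GM.ofPoly (wV p n) P.pol P.hom

namespace H521

open GM

variable (h1 : SpecB1 p n) (h3 : SpecB3 p n) (P P' : Form p n)

/-- the change of variables as an isomorphism -/
noncomputable def ce : TY p n ≃ₐ[ZMod p] VB p n := AlgEquiv.ofBijective P.chg (h1 P)

theorem ce_apply (x : TY p n) : ce h1 P x = P.chg x := rfl

include h3 in
theorem chg_hom {x : TY p n} {i : ℤ} (hx : IsWeightedHomogeneous (wTY p n) x i) :
    IsWeightedHomogeneous (wVB p n) (P.chg x) i :=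
  H246.map_mem_of_graded (wTY p n) (fun w => weightedHomogeneousSubmodule (ZMod p) (wVB p n) w)
    (isWeightedHomogeneous_one (ZMod p) _) (fun _ _ _ _ hx hy => hx.mul hy) P.chg
    (H246.chg_X_hom h3 P) hx

include h3 in
theorem ce_symm_hom {x : VB p n} {i : ℤ} (hx : IsWeightedHomogeneous (wVB p n) x i) :
    IsWeightedHomogeneous (wTY p n) ((ce h1 P).symm x) i := by
  obtain ⟨z, hz, rfl⟩ := H246.exists_homogeneous_preimage (wTY p n) (wVB p n) P.chg
    (H246.chg_X_hom h3 P) (h1 P).2 hx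
  rw [← ce_apply h1 P, AlgEquiv.symm_apply_apply]
  exact hz

include h1 in
/-- `MC P` is projective over the `Y_m`, `m` not special -/
theorem MC_proj : Proj {m | ¬ IsQ p n m} (P.MC h3) := by
  have hy : ∀ m, IsWeightedHomogeneous (wTY p n) ((ce h1 P).symm (yF p P.F m)) ((m : ℤ) + 1) :=
    fun m => ce_symm_hom h1 h3 P (h3 P m)
  have hP : Proj {m | ¬ IsQ p n m}
      (ofPoly (wTY p n) (fun m => (ce h1 P).symm (yF p P.F m)) hy) := by
    refine ofPoly_proj {m | ¬ IsQ p n m} (fun m => (Sum.inr ⟨m.1, m.2⟩ : ℕ ⊕ PI p n)) ?_ ?_ ?_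
    · intro a b hab
      have h2 := Sum.inr_injective hab
      exact Subtype.ext (congrArg (fun z : PI p n => (z : ℕ)) h2)
    · intro m
      rfl
    · intro m
      change (ce h1 P).symm (yF p P.F (m : ℕ)) = X (Sum.inr ⟨m.1, m.2⟩)
      rw [AlgEquiv.symm_apply_eq, ce_apply, Form.chg, aeval_X]
      rfl
  let f : Lin {m | ¬ IsQ p n m} (ofPoly (wTY p n) (fun m => (ce h1 P).symm (yF p P.F m)) hy)
      (P.MC h3) :=
    { f := fun i => ((ce h1 P).toLinearMap.restrict
        (p := weightedHomogeneousSubmodule (ZMod p) (wTY p n) i)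
        (q := weightedHomogeneousSubmodule (ZMod p) (wVB p n) i) fun x hx => chg_hom h3 P hx)
      comm := fun m _ i j h x => by
        apply pval_inj
        change ce h1 P ((ce h1 P).symm (yF p P.F m) * pval _ _ _ x) =
          yF p P.F m * ce h1 P (pval _ _ _ x)
        rw [map_mul, AlgEquiv.apply_symm_apply] }
  let g : Lin {m | ¬ IsQ p n m} (P.MC h3)
      (ofPoly (wTY p n) (fun m => (ce h1 P).symm (yF p P.F m)) hy) :=
    { f := fun i => ((ce h1 P).symm.toLinearMap.restrict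
        (p := weightedHomogeneousSubmodule (ZMod p) (wVB p n) i)
        (q := weightedHomogeneousSubmodule (ZMod p) (wTY p n) i) fun x hx =>
          ce_symm_hom h1 h3 P hx)
      comm := fun m _ i j h x => by
        apply pval_inj
        change (ce h1 P).symm (yF p P.F m * pval _ _ _ x) =
          (ce h1 P).symm (yF p P.F m) * (ce h1 P).symm (pval _ _ _ x)
        rw [map_mul] }
  refine hP.of_equiv f g (fun i x => ?_) (fun i x => ?_)
  · apply pval_inj
    change ce h1 P ((ce h1 P).symm (pval _ _ _ x)) = pval _ _ _ x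
    rw [AlgEquiv.apply_symm_apply]
  · apply pval_inj
    change (ce h1 P).symm (ce h1 P (pval _ _ _ x)) = pval _ _ _ x
    rw [AlgEquiv.symm_apply_apply]

/-! ### the map `π` -/

/-- the map `k[v, b] → S[T]` -/
noncomputable def piM : VB p n →ₐ[ZMod p] MvPolynomial ℕ (MvPolynomial (Fin n) (ZMod p)) :=
  (aeval (Sum.elim X (fun m : PI p n => C (P'.pol m)))).comp (ce h1 P).symm.toAlgHom

theorem piM_chg (x : TY p n) :
    piM h1 P P' (P.chg x) = aeval (Sum.elim X (fun m : PI p n => C (P'.pol m))) x := by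
  unfold piM
  rw [AlgHom.comp_apply, ← ce_apply h1 P]
  congr 1
  exact (ce h1 P).symm_apply_apply x

theorem piM_T (j : ℕ) : piM h1 P P' (X (Sum.inr (p ^ (j + 1) - 2))) = X j := by
  have h2 : P.chg (X (Sum.inl j)) = X (Sum.inr (p ^ (j + 1) - 2)) := by
    rw [Form.chg, aeval_X]; rfl
  rw [← h2, piM_chg, aeval_X]
  rfl

theorem piM_Y (m : ℕ) (hm : ¬ IsQ p n m) : piM h1 P P' (yF p P.F m) = C (P'.pol m) := by
  have h2 : P.chg (X (Sum.inr ⟨m, hm⟩)) = yF p P.F m := by
    rw [Form.chg, aeval_X]; rfl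
  rw [← h2, piM_chg, aeval_X]
  rfl

include h3 in
theorem piM_hom {x : VB p n} {i : ℤ} (hx : IsWeightedHomogeneous (wVB p n) x i) :
    piM h1 P P' x ∈ H246.HomO p n (ZMod p) i :=
  H246.pi_mem_HomO (fun P => (h1 P).2) h3 (piM_T h1 P P') (piM_Y h1 P P') hx

/-- the operators `ρ l` -/
noncomputable def rho (l : ℕ) : MvPolynomial ℕ (MvPolynomial (Fin n) (ZMod p)) :=
  piM h1 P P' (yF p P.F (qi p n l)) - C (P'.pol (qi p n l))

theorem isRho (h2 : SpecB2 p n) : IsRho p n (ZMod p) (rho h1 P P') :=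
  h2 P P' (piM h1 P P') (piM_T h1 P P') (piM_Y h1 P P')

/-! ### functionals -/

/-- linearity of `op` in the ring variable -/
theorem op_smul_left (a : MvPolynomial (Fin n) (ZMod p))
    (f : MvPolynomial ℕ (MvPolynomial (Fin n) (ZMod p))) (φ : Fnl n (ZMod p)) (E : ℕ →₀ ℕ) :
    op (C a * f) φ E = a * op f φ E := by
  rw [op_mul]
  change op (monomial 0 a) (op f φ) E = _
  rw [op_monomial, add_zero]

/-- the functional on `MC P` given by `ψ` -/
noncomputable def toFn {t : ℤ} (ψ : Fnl n (ZMod p)) (hψ : IsDeg p t ψ) :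
    Fn (P.MC h3) P'.RG t := fun q =>
  { toFun := fun x => pmk (wV p n) P'.pol P'.hom (op (piM h1 P P' (pval _ _ _ x)) ψ 0) (by
      have h4 := isDeg_op (piM_hom h1 h3 P P' (pval_hom x)) hψ 0
      rwa [dT, map_zero, add_zero, add_comm, q.2] at h4)
    map_add' := fun x y => pval_inj (by
      change op (piM h1 P P' (pval _ _ _ x + pval _ _ _ y)) ψ 0 =
        op (piM h1 P P' (pval _ _ _ x)) ψ 0 + op (piM h1 P P' (pval _ _ _ y)) ψ 0
      rw [map_add, op_fadd, Pi.add_apply])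
    map_smul' := fun c x => pval_inj (by
      change op (piM h1 P P' (c • pval _ _ _ x)) ψ 0 = c • op (piM h1 P P' (pval _ _ _ x)) ψ 0
      rw [map_smul]
      have h4 : ∀ f : MvPolynomial ℕ (MvPolynomial (Fin n) (ZMod p)), c • f =
          C (C c : MvPolynomial (Fin n) (ZMod p)) * f := by
        intro f
        rw [← smul_eq_C_mul, ← algebraMap_eq, algebraMap_smul]
      rw [h4, op_smul_left, ← smul_eq_C_mul]) }

theorem toFn_apply {t : ℤ} (ψ : Fnl n (ZMod p)) (hψ : IsDeg p t ψ) (q : Ix t)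
    (x : (P.MC h3).A q.1.1) : pval _ _ _ (toFn h1 h3 P P' ψ hψ q x : P'.RG.A q.1.2) =
      op (piM h1 P P' (pval _ _ _ x)) ψ 0 := rfl

/-- the monomial `T^E` in `k[v, b]` -/
noncomputable def tm (E : ℕ →₀ ℕ) : VB p n := P.chg (rename Sum.inl (monomial E 1))

include h3 in
theorem tm_hom (E : ℕ →₀ ℕ) : IsWeightedHomogeneous (wVB p n) (tm P E) (dT p E) :=
  H246.map_mem_of_graded (wT p) (fun w => weightedHomogeneousSubmodule (ZMod p) (wVB p n) w)
    (isWeightedHomogeneous_one (ZMod p) _) (fun _ _ _ _ hx hy => hx.mul hy)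
    (P.chg.comp (rename Sum.inl)) (fun j => by
      rw [AlgHom.comp_apply, rename_X]
      exact H246.chg_X_hom h3 P (Sum.inl j)) (isWeightedHomogeneous_monomial (wT p) E 1 rfl)

theorem piM_tm (E : ℕ →₀ ℕ) : piM h1 P P' (tm P E) = monomial E 1 := by
  unfold tm
  rw [piM_chg, aeval_rename, aeval_monomial, monomial_eq, map_one, map_one]
  rfl

/-- the functional on `T`-monomials given by a functional on `MC P` -/
noncomputable def ofFn {t : ℤ} (φ : Fn (P.MC h3) P'.RG t) : Fnl n (ZMod p) := fun E =>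
  pval (wV p n) P'.pol P'.hom (φ (ix (i := dT p E) (j := dT p E + t) rfl)
    (pmk (wVB p n) (fun m => yF p P.F m) (h3 P) (tm P E) (tm_hom h3 P E)))

theorem ofFn_isDeg {t : ℤ} (φ : Fn (P.MC h3) P'.RG t) : IsDeg p t (ofFn h3 P P' φ) := by
  intro E
  have h4 := pval_hom (φ (ix (i := dT p E) (j := dT p E + t) rfl)
    (pmk (wVB p n) (fun m => yF p P.F m) (h3 P) (tm P E) (tm_hom h3 P E)))
  rw [add_comm t]
  exact h4

theorem toFn_tm {t : ℤ} (ψ : Fnl n (ZMod p)) (hψ : IsDeg p t ψ) (E : ℕ →₀ ℕ) :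
    ofFn h3 P P' (toFn h1 h3 P P' ψ hψ) E = ψ E := by
  change op (piM h1 P P' (tm P E)) ψ 0 = ψ E
  rw [piM_tm, op_monomial, one_mul, zero_add]

theorem ofFn_toFn {t : ℤ} (ψ : Fnl n (ZMod p)) (hψ : IsDeg p t ψ) :
    ofFn h3 P P' (toFn h1 h3 P P' ψ hψ) = ψ := funext fun E => toFn_tm h1 h3 P P' ψ hψ E

theorem toFn_inj {t : ℤ} {ψ ψ' : Fnl n (ZMod p)} {hψ : IsDeg p t ψ} {hψ' : IsDeg p t ψ'}
    (h : toFn h1 h3 P P' ψ hψ = toFn h1 h3 P P' ψ' hψ') : ψ = ψ' := by
  rw [← ofFn_toFn h1 h3 P P' ψ hψ, h, ofFn_toFn]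

theorem toFn_zero {t : ℤ} (h : IsDeg p t (0 : Fnl n (ZMod p))) :
    toFn h1 h3 P P' (0 : Fnl n (ZMod p)) h = 0 := by
  funext q
  ext x
  apply pval_inj
  change op (piM h1 P P' (pval _ _ _ x)) 0 0 = 0
  rw [op_phi_zero]
  rfl

theorem toFn_sub {t : ℤ} {ψ ψ' : Fnl n (ZMod p)} (hψ : IsDeg p t ψ) (hψ' : IsDeg p t ψ')
    (h : IsDeg p t (ψ - ψ')) :
    toFn h1 h3 P P' (ψ - ψ') h = toFn h1 h3 P P' ψ hψ - toFn h1 h3 P P' ψ' hψ' := by
  funext q
  ext x
  apply pval_inj
  change op (piM h1 P P' (pval _ _ _ x)) (ψ - ψ') 0 =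
    op (piM h1 P P' (pval _ _ _ x)) ψ 0 - op (piM h1 P P' (pval _ _ _ x)) ψ' 0
  rw [op_phi_sub]
  rfl

theorem com_toFn {t : ℤ} (ψ : Fnl n (ZMod p)) (hψ : IsDeg p t ψ) {m : ℕ} (hm : ¬ IsQ p n m) :
    Com m (toFn h1 h3 P P' ψ hψ) := by
  intro i j i' j' h h' h4 h5 x
  apply pval_inj
  change op (piM h1 P P' (yF p P.F m * pval _ _ _ x)) ψ 0 =
    P'.pol m * op (piM h1 P P' (pval _ _ _ x)) ψ 0
  rw [map_mul, piM_Y h1 P P' m hm, op_smul_left]

theorem Th_toFn {t t' : ℤ} (ψ : Fnl n (ZMod p)) (hψ : IsDeg p t ψ) (l : ℕ)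
    (ht : t + ((qi p n l : ℤ) + 1) = t') (hψ' : IsDeg p t' (op (rho h1 P P' l) ψ)) :
    Th (qi p n l) ht (toFn h1 h3 P P' ψ hψ) = toFn h1 h3 P P' (op (rho h1 P P' l) ψ) hψ' := by
  funext ⟨⟨i, j⟩, hij⟩
  ext x
  have hij' : i + t' = j := hij
  have e1 := Th_apply (qi p n l) ht (toFn h1 h3 P P' ψ hψ) hij' rfl (by omega)
    (j' := i + t) rfl (by omega) x
  refine e1.trans (pval_inj ?_)
  change op (piM h1 P P' (yF p P.F (qi p n l) * pval _ _ _ x)) ψ 0 -
    P'.pol (qi p n l) * op (piM h1 P P' (pval _ _ _ x)) ψ 0 =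
      op (piM h1 P P' (pval _ _ _ x)) (op (rho h1 P P' l) ψ) 0
  rw [← op_mul, sub_eq_iff_eq_add, ← op_smul_left, ← Pi.add_apply, ← op_fadd]
  congr 2
  rw [map_mul, rho]
  ring

theorem op_isDeg (h2 : SpecB2 p n) {t t' : ℤ} {ψ : Fnl n (ZMod p)} (hψ : IsDeg p t ψ) (l : ℕ)
    (ht : t + ((qi p n l : ℤ) + 1) = t') : IsDeg p t' (op (rho h1 P P' l) ψ) := by
  have h4 := isDeg_op ((isRho h1 P P' h2).hom l) hψ
  rwa [← H246.qi_cast, ht] at h4

include h3 in
theorem hol_toFn (h2 : SpecB2 p n) {t : ℤ} (ψ : Fnl n (ZMod p)) (hψ : IsDeg p t ψ) (m : ℕ) :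
    Hol {m | ¬ IsQ p n m} (qi p n) m (toFn h1 h3 P P' ψ hψ) ↔
      ∀ l < m, op (rho h1 P P' l) ψ = 0 := by
  have h4 : ∀ l, Com (qi p n l) (toFn h1 h3 P P' ψ hψ) ↔ op (rho h1 P P' l) ψ = 0 := by
    intro l
    have hd := op_isDeg h1 P P' h2 hψ l rfl
    rw [com_iff_Th (qi p n l) rfl, Th_toFn h1 h3 P P' ψ hψ l rfl hd]
    constructor
    · intro h
      exact toFn_inj h1 h3 P P' (h.trans (toFn_zero h1 h3 P P' isDeg_zero).symm)
    · intro h
      have h5 : ∀ (z : Fnl n (ZMod p)) (hz : IsDeg p (t + ((qi p n l : ℤ) + 1)) z), z = 0 →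
          toFn h1 h3 P P' z hz = 0 := by
        intro z hz h0
        subst h0
        exact toFn_zero h1 h3 P P' hz
      exact h5 _ hd h
  constructor
  · intro h l hl
    exact (h4 l).1 (h.com' l hl)
  · intro h
    exact ⟨fun i hi => com_toFn h1 h3 P P' ψ hψ hi, fun l hl => (h4 l).2 (h l hl)⟩

theorem weight_mapDomain {σ τ : Type} (w : τ → ℤ) (f : σ → τ) (E : σ →₀ ℕ) :
    Finsupp.weight w (E.mapDomain f) = Finsupp.weight (fun i => w (f i)) E :=
  Finsupp.linearCombination_mapDomain ℕ f E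

/-- functionals which are linear over the `Y_m`, `m` not special, are given by their values on
the `T`-monomials -/
theorem toFn_ofFn {t : ℤ} (φ : Fn (P.MC h3) P'.RG t) (hφ : ∀ m, ¬ IsQ p n m → Com m φ) :
    toFn h1 h3 P P' (ofFn h3 P P' φ) (ofFn_isDeg h3 P P' φ) = φ := by
  have hstep : ∀ (m : PI p n) (δ : ℕ ⊕ PI p n →₀ ℕ),
      (∀ (i j : ℤ) (h : i + t = j) (_ : Finsupp.weight (wTY p n) δ = i)
        (hx : IsWeightedHomogeneous (wVB p n) (P.chg (monomial δ 1)) i),
        pval (wV p n) P'.pol P'.hom (φ (ix h) (pmk (wVB p n) (fun m => yF p P.F m) (h3 P)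
          (P.chg (monomial δ 1)) hx)) =
            op (piM h1 P P' (P.chg (monomial δ 1))) (ofFn h3 P P' φ) 0) →
      (∀ (i j : ℤ) (h : i + t = j)
        (_ : Finsupp.weight (wTY p n) (Finsupp.single (Sum.inr m) 1 + δ) = i)
        (hx : IsWeightedHomogeneous (wVB p n)
          (P.chg (monomial (Finsupp.single (Sum.inr m) 1 + δ) 1)) i),
        pval (wV p n) P'.pol P'.hom (φ (ix h) (pmk (wVB p n) (fun m => yF p P.F m) (h3 P)
          (P.chg (monomial (Finsupp.single (Sum.inr m) 1 + δ) 1)) hx)) =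
            op (piM h1 P P' (P.chg (monomial (Finsupp.single (Sum.inr m) 1 + δ) 1)))
              (ofFn h3 P P' φ) 0) := by
    intro m δ hδ i j h hi hx
    have e0 : (monomial (Finsupp.single (Sum.inr m) 1 + δ) 1 : TY p n) =
        X (Sum.inr m) * monomial δ 1 := by
      rw [X, monomial_mul, one_mul]
    have e1 : P.chg (monomial (Finsupp.single (Sum.inr m) 1 + δ) 1) =
        yF p P.F (m : ℕ) * P.chg (monomial δ 1) := by
      rw [e0, map_mul]
      congr 1
      rw [Form.chg, aeval_X]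
      rfl
    have e2 : Finsupp.weight (wTY p n) δ + (((m : ℕ) : ℤ) + 1) = i := by
      rw [← hi, map_add, Finsupp.weight_single, one_smul, add_comm]
      rfl
    have hx' : IsWeightedHomogeneous (wVB p n) (P.chg (monomial δ 1))
        (Finsupp.weight (wTY p n) δ) :=
      chg_hom h3 P (isWeightedHomogeneous_monomial _ _ _ rfl)
    have e3 : pmk (wVB p n) (fun m => yF p P.F m) (h3 P)
        (P.chg (monomial (Finsupp.single (Sum.inr m) 1 + δ) 1)) hx =
        (P.MC h3).act (m : ℕ) e2 (pmk (wVB p n) (fun m => yF p P.F m) (h3 P)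
          (P.chg (monomial δ 1)) hx') := pval_inj e1
    rw [e3]
    have e4 := hφ (m : ℕ) m.2 (Finsupp.weight (wTY p n) δ) (Finsupp.weight (wTY p n) δ + t) i j
      rfl h e2 (by omega) (pmk (wVB p n) (fun m => yF p P.F m) (h3 P) (P.chg (monomial δ 1)) hx')
    rw [e4]
    have e5 := hδ _ _ rfl rfl hx'
    change P'.pol (m : ℕ) * pval (wV p n) P'.pol P'.hom _ = _
    rw [e5, e1, map_mul, piM_Y h1 P P' m m.2, op_smul_left]
  have hall : ∀ (β : PI p n →₀ ℕ) (E : ℕ →₀ ℕ) (i j : ℤ) (h : i + t = j)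
      (_ : Finsupp.weight (wTY p n) (β.mapDomain Sum.inr + E.mapDomain Sum.inl) = i)
        (hx : IsWeightedHomogeneous (wVB p n)
          (P.chg (monomial (β.mapDomain Sum.inr + E.mapDomain Sum.inl) 1)) i),
        pval (wV p n) P'.pol P'.hom (φ (ix h) (pmk (wVB p n) (fun m => yF p P.F m) (h3 P)
          (P.chg (monomial (β.mapDomain Sum.inr + E.mapDomain Sum.inl) 1)) hx)) =
            op (piM h1 P P' (P.chg (monomial (β.mapDomain Sum.inr + E.mapDomain Sum.inl) 1)))
              (ofFn h3 P P' φ) 0 := by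
    intro β E
    induction β using Finsupp.induction with
    | zero =>
      rw [Finsupp.mapDomain_zero, zero_add]
      intro i j h hi hx
      have e1 : Finsupp.weight (wTY p n) (E.mapDomain Sum.inl) = dT p E := by
        rw [weight_mapDomain]
        rfl
      have e2 : (monomial (E.mapDomain Sum.inl) 1 : TY p n) = rename Sum.inl (monomial E 1) := by
        rw [rename_monomial]
      obtain rfl : dT p E = i := e1.symm.trans hi
      subst h
      have e3 : pmk (wVB p n) (fun m => yF p P.F m) (h3 P)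
          (P.chg (monomial (E.mapDomain Sum.inl) 1)) hx =
          pmk (wVB p n) (fun m => yF p P.F m) (h3 P) (tm P E) (tm_hom h3 P E) := pval_inj (by
        change P.chg (monomial (E.mapDomain Sum.inl) 1) = tm P E
        rw [e2]
        rfl)
      rw [e3, e2]
      change ofFn h3 P P' φ E = op (piM h1 P P' (tm P E)) (ofFn h3 P P' φ) 0
      rw [piM_tm, op_monomial, one_mul, zero_add]
    | single_add m c f _ _ ih =>
      clear * - ih hstep
      induction c with
      | zero => simpa using ih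
      | succ c ih2 =>
        have h2 : (Finsupp.single m (c + 1) + f).mapDomain Sum.inr + E.mapDomain Sum.inl =
            Finsupp.single (Sum.inr m) 1 +
              ((Finsupp.single m c + f).mapDomain Sum.inr + E.mapDomain Sum.inl) := by
          rw [Finsupp.mapDomain_add, Finsupp.mapDomain_add, Finsupp.mapDomain_single,
            Finsupp.mapDomain_single, add_comm c 1, Finsupp.single_add]
          abel
        rw [h2]
        exact hstep m _ ih2
  funext q
  have key : ((toFn h1 h3 P P' (ofFn h3 P P' φ) (ofFn_isDeg h3 P P' φ)) q) ∘ₗ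
      ((ce h1 P).toLinearMap.restrict
        (p := weightedHomogeneousSubmodule (ZMod p) (wTY p n) q.1.1)
        (q := weightedHomogeneousSubmodule (ZMod p) (wVB p n) q.1.1)
          fun x hx => chg_hom h3 P hx) =
      (φ q) ∘ₗ ((ce h1 P).toLinearMap.restrict
        (p := weightedHomogeneousSubmodule (ZMod p) (wTY p n) q.1.1)
        (q := weightedHomogeneousSubmodule (ZMod p) (wVB p n) q.1.1)
          fun x hx => chg_hom h3 P hx) := by
    refine whs_ext fun δ hδ => pval_inj ?_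
    have hδ' : (δ.comapDomain Sum.inr Sum.inr_injective.injOn).mapDomain Sum.inr +
        (δ.comapDomain Sum.inl Sum.inl_injective.injOn).mapDomain Sum.inl = δ := by
      ext a
      rcases a with a | a
      · rw [Finsupp.add_apply, Finsupp.mapDomain_apply Sum.inl_injective,
          Finsupp.mapDomain_of_notMem_range _ _ (by simp), zero_add, Finsupp.comapDomain_apply]
      · rw [Finsupp.add_apply, Finsupp.mapDomain_apply Sum.inr_injective,
          Finsupp.mapDomain_of_notMem_range _ _ (by simp), add_zero, Finsupp.comapDomain_apply]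
    have h4 := hall (δ.comapDomain Sum.inr Sum.inr_injective.injOn)
      (δ.comapDomain Sum.inl Sum.inl_injective.injOn)
    rw [hδ'] at h4
    exact (h4 q.1.1 q.1.2 q.2 hδ (chg_hom h3 P (isWeightedHomogeneous_monomial _ _ _ hδ))).symm
  ext x
  obtain ⟨z, hz⟩ : ∃ z : weightedHomogeneousSubmodule (ZMod p) (wTY p n) q.1.1,
      ((ce h1 P).toLinearMap.restrict
        (p := weightedHomogeneousSubmodule (ZMod p) (wTY p n) q.1.1)
        (q := weightedHomogeneousSubmodule (ZMod p) (wVB p n) q.1.1)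
          fun x hx => chg_hom h3 P hx) z = x :=
    ⟨⟨(ce h1 P).symm (pval _ _ _ x), ce_symm_hom h1 h3 P (pval_hom x)⟩, Subtype.ext (by
      change ce h1 P ((ce h1 P).symm (pval _ _ _ x)) = pval _ _ _ x
      rw [AlgEquiv.apply_symm_apply])⟩
  rw [← hz]
  exact LinearMap.congr_fun key z

include h1 in
/-- **the base case of the universal coefficient theorem** -/
theorem kk_MC (h2 : SpecB2 p n) (A2 : SpecA2 p n (ZMod p)) (A3 : SpecA3 p n) :
    KK {m | ¬ IsQ p n m} (qi p n) P'.RG (P.MC h3) 0 where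
  proj := MC_proj h1 h3 P
  surj := by
    intro t ht m t' ht' χ hχ
    have e1 := toFn_ofFn h1 h3 P P' χ hχ.com
    have e2 : ∀ l < m, op (rho h1 P P' l) (ofFn h3 P P' χ) = 0 :=
      (hol_toFn h1 h3 P P' h2 _ (ofFn_isDeg h3 P P' χ) m).1 (by rw [e1]; exact hχ)
    obtain ⟨ψ, h4, h5, h6⟩ := A2 (rho h1 P P') (isRho h1 P P' h2) t ht m (ofFn h3 P P' χ)
      (by rw [← H246.qi_cast, ht']; exact ofFn_isDeg h3 P P' χ) e2
    refine ⟨toFn h1 h3 P P' ψ h4, (hol_toFn h1 h3 P P' h2 ψ h4 m).2 h5, ?_⟩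
    rw [Th_toFn h1 h3 P P' ψ h4 m ht' (op_isDeg h1 P P' h2 h4 m ht')]
    refine Eq.trans ?_ e1
    congr 1
  lim := by
    intro t ht φ hφ
    obtain ⟨ψ, h4, h5, h6⟩ := A3 (rho h1 P P') t (fun m => ofFn h3 P P' (φ m))
      (fun m => ofFn_isDeg h3 P P' (φ m)) (fun m =>
        (hol_toFn h1 h3 P P' h2 _ (ofFn_isDeg h3 P P' (φ m)) m).1 (by
          rw [toFn_ofFn h1 h3 P P' (φ m) (hφ m).com]; exact hφ m))
    refine ⟨fun m => toFn h1 h3 P P' (ψ m) (h4 m), fun m =>
      (hol_toFn h1 h3 P P' h2 _ (h4 m) m).2 (h5 m), fun m => ?_⟩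
    rw [← toFn_ofFn h1 h3 P P' (φ m) (hφ m).com,
      ← toFn_sub h1 h3 P P' (h4 m) (h4 (m + 1)) (isDeg_sub (h4 m) (h4 (m + 1)))]
    congr 1
    exact h6 m

end H521

end Vale.Agent.P221
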