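import Vale.Agent.P221.Defs
import Mathlib.RingTheory.MvPolynomial.Ideal

/-!
# P221: algebra of the operators `op f`
-/

open MvPolynomial

namespace Vale.Agent.P221

namespace H521

variable {p n : ℕ} {k : Type} [CommRing k]

/-! ### the action -/

lemma op_eq_sum {f : MvPolynomial ℕ (MvPolynomial (Fin n) k)} {s : Finset (ℕ →₀ ℕ)}
    (hs : f.support ⊆ s) (φ : Fnl n k) (E : ℕ →₀ ℕ) :
    op f φ E = ∑ E' ∈ s, f.coeff E' * φ (E + E') := by
  unfold op
  refine Finset.sum_subset hs fun E' _ h => ?_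
  rw [MvPolynomial.notMem_support_iff] at h
  rw [h, zero_mul]

lemma op_fadd (f g : MvPolynomial ℕ (MvPolynomial (Fin n) k)) (φ : Fnl n k) :
    op (f + g) φ = op f φ + op g φ := by
  classical
  funext E
  rw [Pi.add_apply, op_eq_sum (s := f.support ∪ g.support) (MvPolynomial.support_add) φ E,
    op_eq_sum (s := f.support ∪ g.support) Finset.subset_union_left φ E,
    op_eq_sum (s := f.support ∪ g.support) Finset.subset_union_right φ E,
    ← Finset.sum_add_distrib]
  refine Finset.sum_congr rfl fun E' _ => ?_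
  rw [MvPolynomial.coeff_add, add_mul]

lemma op_zero_left (φ : Fnl n k) : op (0 : MvPolynomial ℕ (MvPolynomial (Fin n) k)) φ = 0 := by
  funext E
  simp [op]

lemma op_monomial (u : ℕ →₀ ℕ) (a : MvPolynomial (Fin n) k) (φ : Fnl n k) (E : ℕ →₀ ℕ) :
    op (monomial u a) φ E = a * φ (E + u) := by
  classical
  rw [op_eq_sum (s := {u}) (MvPolynomial.support_monomial_subset) φ E, Finset.sum_singleton,
    MvPolynomial.coeff_monomial, if_pos rfl]

lemma op_fsum {ι : Type} (s : Finset ι) (f : ι → MvPolynomial ℕ (MvPolynomial (Fin n) k))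
    (φ : Fnl n k) : op (∑ i ∈ s, f i) φ = ∑ i ∈ s, op (f i) φ := by
  classical
  induction s using Finset.induction_on with
  | empty => simp [op_zero_left]
  | insert a s ha ih => rw [Finset.sum_insert ha, Finset.sum_insert ha, op_fadd, ih]

lemma op_phi_add (f : MvPolynomial ℕ (MvPolynomial (Fin n) k)) (φ ψ : Fnl n k) :
    op f (φ + ψ) = op f φ + op f ψ := by
  funext E
  simp only [op, Pi.add_apply, mul_add, Finset.sum_add_distrib]

lemma op_phi_sub (f : MvPolynomial ℕ (MvPolynomial (Fin n) k)) (φ ψ : Fnl n k) :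
    op f (φ - ψ) = op f φ - op f ψ := by
  funext E
  simp only [op, Pi.sub_apply, mul_sub, Finset.sum_sub_distrib]

lemma op_phi_neg (f : MvPolynomial ℕ (MvPolynomial (Fin n) k)) (φ : Fnl n k) :
    op f (-φ) = -op f φ := by
  funext E
  simp only [op, Pi.neg_apply, mul_neg, Finset.sum_neg_distrib]

lemma op_phi_zero (f : MvPolynomial ℕ (MvPolynomial (Fin n) k)) :
    op f (0 : Fnl n k) = 0 := by
  funext E
  simp [op]

lemma op_phi_sum {ι : Type} (s : Finset ι) (f : MvPolynomial ℕ (MvPolynomial (Fin n) k))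
    (φ : ι → Fnl n k) : op f (∑ i ∈ s, φ i) = ∑ i ∈ s, op f (φ i) := by
  classical
  induction s using Finset.induction_on with
  | empty => simp [op_phi_zero]
  | insert a s ha ih => rw [Finset.sum_insert ha, Finset.sum_insert ha, op_phi_add, ih]

lemma op_mul (f g : MvPolynomial ℕ (MvPolynomial (Fin n) k)) (φ : Fnl n k) :
    op (f * g) φ = op f (op g φ) := by
  induction f using MvPolynomial.induction_on' with
  | monomial u a =>
    induction g using MvPolynomial.induction_on' with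
    | monomial v b =>
      funext E
      rw [MvPolynomial.monomial_mul, op_monomial, op_monomial, op_monomial, mul_assoc, add_assoc]
    | add g1 g2 h1 h2 => rw [mul_add, op_fadd, h1, h2, op_fadd, op_phi_add]
  | add f1 f2 h1 h2 => rw [add_mul, op_fadd, h1, h2, op_fadd]

lemma op_comm (f g : MvPolynomial ℕ (MvPolynomial (Fin n) k)) (φ : Fnl n k) :
    op f (op g φ) = op g (op f φ) := by
  rw [← op_mul, ← op_mul, mul_comm]

/-! ### degrees -/

lemma dT_add (E E' : ℕ →₀ ℕ) : dT p (E + E') = dT p E + dT p E' := by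
  simp [dT, map_add]

lemma isDeg_add {t : ℤ} {φ ψ : Fnl n k} (h1 : IsDeg p t φ) (h2 : IsDeg p t ψ) :
    IsDeg p t (φ + ψ) := fun E => by
  rw [← mem_weightedHomogeneousSubmodule]
  exact Submodule.add_mem _ (h1 E) (h2 E)

lemma isDeg_sub {t : ℤ} {φ ψ : Fnl n k} (h1 : IsDeg p t φ) (h2 : IsDeg p t ψ) :
    IsDeg p t (φ - ψ) := fun E => by
  rw [← mem_weightedHomogeneousSubmodule]
  exact Submodule.sub_mem _ (h1 E) (h2 E)

lemma isDeg_neg {t : ℤ} {φ : Fnl n k} (h1 : IsDeg p t φ) : IsDeg p t (-φ) := fun E => by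
  rw [← mem_weightedHomogeneousSubmodule]
  exact Submodule.neg_mem _ (h1 E)

lemma isDeg_zero {t : ℤ} : IsDeg p t (0 : Fnl n k) := fun E => by
  rw [← mem_weightedHomogeneousSubmodule]
  exact Submodule.zero_mem _

lemma isDeg_op {t d : ℤ} {f : MvPolynomial ℕ (MvPolynomial (Fin n) k)} {φ : Fnl n k}
    (hf : ∀ E, IsWeightedHomogeneous (wV p n) (f.coeff E) (d - dT p E)) (h : IsDeg p t φ) :
    IsDeg p (t + d) (op f φ) := fun E => by
  rw [← mem_weightedHomogeneousSubmodule]
  refine Submodule.sum_mem _ fun E' _ => ?_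
  rw [mem_weightedHomogeneousSubmodule]
  have := (hf E').mul (h (E + E'))
  rw [dT_add] at this
  convert this using 1
  ring

/-! ### ideal powers -/

/-- values in `I^s` -/
def VI (s : ℕ) (φ : Fnl n k) : Prop := ∀ E, φ E ∈ Iv n k ^ s

lemma mem_Iv_pow_iff {s : ℕ} {f : MvPolynomial (Fin n) k} :
    f ∈ Iv n k ^ s ↔ ∀ x : Fin n →₀ ℕ, x.degree < s → f.coeff x = 0 :=
  MvPolynomial.mem_pow_idealOfVars_iff' s f

lemma VI.add {s : ℕ} {φ ψ : Fnl n k} (h1 : VI s φ) (h2 : VI s ψ) : VI s (φ + ψ) :=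
  fun E => Ideal.add_mem _ (h1 E) (h2 E)

lemma VI.sub {s : ℕ} {φ ψ : Fnl n k} (h1 : VI s φ) (h2 : VI s ψ) : VI s (φ - ψ) :=
  fun E => Ideal.sub_mem _ (h1 E) (h2 E)

lemma VI.neg {s : ℕ} {φ : Fnl n k} (h1 : VI s φ) : VI s (-φ) :=
  fun E => neg_mem (h1 E)

lemma VI.mono {s r : ℕ} (h : r ≤ s) {φ : Fnl n k} (h1 : VI s φ) : VI r φ :=
  fun E => Ideal.pow_le_pow_right h (h1 E)

lemma VI.op {s r : ℕ} {φ : Fnl n k} (h1 : VI s φ)
    {f : MvPolynomial ℕ (MvPolynomial (Fin n) k)} (hf : ∀ E, f.coeff E ∈ Iv n k ^ r) :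
    VI (r + s) (op f φ) := fun E => by
  refine Ideal.sum_mem _ fun E' _ => ?_
  rw [pow_add]
  exact Ideal.mul_mem_mul (hf E') (h1 _)

lemma vi_zero (φ : Fnl n k) : VI 0 φ := fun E => by simp

/-- the component of polynomial degree `s` -/
noncomputable def cmp (s : ℕ) (φ : Fnl n k) : Fnl n k := fun E => homogeneousComponent s (φ E)

lemma cmp_add (s : ℕ) (φ ψ : Fnl n k) : cmp s (φ + ψ) = cmp s φ + cmp s ψ := by
  funext E
  simp [cmp]

lemma cmp_sub (s : ℕ) (φ ψ : Fnl n k) : cmp s (φ - ψ) = cmp s φ - cmp s ψ := by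
  funext E
  simp [cmp]

lemma cmp_neg (s : ℕ) (φ : Fnl n k) : cmp s (-φ) = -cmp s φ := by
  funext E
  simp [cmp]

lemma cmp_zero (s : ℕ) : cmp s (0 : Fnl n k) = 0 := by
  funext E
  simp [cmp]

lemma cmp_hom (s : ℕ) (φ : Fnl n k) (E : ℕ →₀ ℕ) : (cmp s φ E).IsHomogeneous s :=
  homogeneousComponent_isHomogeneous s _

lemma cmp_isDeg {s : ℕ} {t : ℤ} {φ : Fnl n k} (h : IsDeg p t φ) : IsDeg p t (cmp s φ) := by
  classical
  intro E d hd
  apply h E
  unfold cmp at hd
  rw [coeff_homogeneousComponent] at hd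
  split_ifs at hd with h1
  · exact hd
  · exact absurd rfl hd

lemma cmp_eq_zero {s r : ℕ} (h : r < s) {φ : Fnl n k} (h1 : VI s φ) : cmp r φ = 0 := by
  funext E
  ext d
  unfold cmp
  rw [coeff_homogeneousComponent]
  split_ifs with h2
  · rw [mem_Iv_pow_iff.1 (h1 E) d (by omega)]
    simp
  · simp

lemma sub_cmp {s : ℕ} {φ : Fnl n k} (h1 : VI s φ) : VI (s + 1) (φ - cmp s φ) := by
  intro E
  rw [mem_Iv_pow_iff]
  intro d hd
  rw [Pi.sub_apply, coeff_sub]
  unfold cmp
  rw [coeff_homogeneousComponent]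
  split_ifs with h2
  · simp
  · rw [mem_Iv_pow_iff.1 (h1 E) d (by omega), sub_zero]

lemma vi_of_hom {s : ℕ} {φ : Fnl n k} (h : ∀ E, (φ E).IsHomogeneous s) : VI s φ := by
  intro E
  rw [mem_Iv_pow_iff]
  intro d hd
  exact (h E).coeff_eq_zero (by omega)

lemma cmp_of_hom {s : ℕ} {φ : Fnl n k} (h : ∀ E, (φ E).IsHomogeneous s) : cmp s φ = φ := by
  funext E
  unfold cmp
  rw [homogeneousComponent_of_mem (h E), if_pos rfl]

/-! ### the operators `R` -/

lemma op_R (l : ℕ) (φ : Fnl n k) (E : ℕ →₀ ℕ) :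
    op (R p n k l) φ E
      = ∑ a : Fin n, X a * φ (E + Finsupp.single (n - 1 - a + l) (p ^ ((a : ℕ) + 1))) := by
  unfold R
  rw [op_fsum, Finset.sum_apply]
  refine Finset.sum_congr rfl fun a _ => ?_
  rw [MvPolynomial.X_pow_eq_monomial, MvPolynomial.C_mul_monomial, mul_one, op_monomial]

lemma comp_X_mul (s : ℕ) (a : Fin n) (f : MvPolynomial (Fin n) k) :
    homogeneousComponent (s + 1) (X a * f) = X a * homogeneousComponent s f := by
  classical
  ext d
  rw [coeff_homogeneousComponent, coeff_X_mul', coeff_X_mul', coeff_homogeneousComponent]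
  by_cases ha : a ∈ d.support
  · rw [if_pos ha, if_pos ha]
    have h1 : 1 ≤ d a := Nat.one_le_iff_ne_zero.2 (Finsupp.mem_support_iff.1 ha)
    have h2 : d = (d - Finsupp.single a 1) + Finsupp.single a 1 := by
      rw [tsub_add_cancel_of_le]
      rw [Finsupp.single_le_iff]
      exact h1
    have h3 : d.degree = (d - Finsupp.single a 1).degree + 1 := by
      conv_lhs => rw [h2]
      rw [map_add, Finsupp.degree_single]
    rw [h3]
    by_cases h4 : (d - Finsupp.single a 1).degree = s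
    · rw [if_pos (by omega), if_pos h4]
    · rw [if_neg (by omega), if_neg h4]
  · rw [if_neg ha, if_neg ha]
    simp

lemma cmp_R (s l : ℕ) (φ : Fnl n k) :
    cmp (s + 1) (op (R p n k l) φ) = op (R p n k l) (cmp s φ) := by
  funext E
  rw [op_R]
  unfold cmp
  rw [op_R, map_sum]
  refine Finset.sum_congr rfl fun a _ => ?_
  rw [comp_X_mul]

end H521

end Vale.Agent.P221
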