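import Vale.Agent.P221.GM
import Vale.Agent.P221.DefsB
import Vale.Agent.P221.H246.B2Hom
import Vale.Agent.P221.H521.Ops

/-!
# P221: polynomial rings as graded modules over `k[Y_0, Y_1, …]`

* `GM.ofPoly w y hy` : the polynomial ring `k[X_i]` graded by `w`, `Y_m` acts as `y m`.
* `GM.ofPoly_proj` : projectivity over the `Y_m`, `m ∈ P`, if these act as distinct variables.
* `GM.Lg k` : the ring `k[Y_0, Y_1, …]` itself; `GM.Lg_proj`.
* `Form.MC`, `Form.RG` : `k[v, b]` with the `Y_m` of the law `F`, and `k[v]` with `Y_m ↦ pol m`.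
-/

open MvPolynomial

namespace Vale.Agent.P221

namespace GM

section Poly

variable {k : Type} [CommRing k] {τ : Type} (w : τ → ℤ) (y : ℕ → MvPolynomial τ k)
  (hy : ∀ m, IsWeightedHomogeneous w (y m) ((m : ℤ) + 1))

/-- a polynomial ring, graded by `w`; `Y_m` acts as the multiplication by `y m` -/
noncomputable def ofPoly : GM k where
  A i := weightedHomogeneousSubmodule k w i
  act m {i j} h := (LinearMap.mulLeft k (y m)).restrict (p := weightedHomogeneousSubmodule k w i)
    (q := weightedHomogeneousSubmodule k w j) (fun x hx => by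
      rw [← h, add_comm]
      exact (hy m).mul hx)
  comm m n {i j j' l} h1 h2 h3 h4 x := by
    apply Subtype.ext
    change y n * (y m * (x : MvPolynomial τ k)) = y m * (y n * (x : MvPolynomial τ k))
    ring

/-- the inclusion of the homogeneous part -/
noncomputable def pval {i : ℤ} : (ofPoly w y hy).A i →ₗ[k] MvPolynomial τ k :=
  (weightedHomogeneousSubmodule k w i).subtype

/-- a homogeneous polynomial as an element of the homogeneous part -/
def pmk {i : ℤ} (x : MvPolynomial τ k) (hx : IsWeightedHomogeneous w x i) :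
    (ofPoly w y hy).A i := (⟨x, hx⟩ : weightedHomogeneousSubmodule k w i)

variable {w y hy}

theorem pval_act (m : ℕ) {i j : ℤ} (h : i + ((m : ℤ) + 1) = j) (x : (ofPoly w y hy).A i) :
    pval w y hy ((ofPoly w y hy).act m h x) = y m * pval w y hy x := rfl

theorem pval_pmk {i : ℤ} (x : MvPolynomial τ k) (hx : IsWeightedHomogeneous w x i) :
    pval w y hy (pmk w y hy x hx) = x := rfl

theorem pmk_pval {i : ℤ} (x : (ofPoly w y hy).A i) (hx : IsWeightedHomogeneous w (pval w y hy x) i) :
    pmk w y hy (pval w y hy x) hx = x := rfl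

theorem pval_hom {i : ℤ} (x : (ofPoly w y hy).A i) :
    IsWeightedHomogeneous w (pval w y hy x) i :=
  (show weightedHomogeneousSubmodule k w i from x).2

theorem pval_inj {i : ℤ} {x x' : (ofPoly w y hy).A i}
    (h : pval w y hy x = pval w y hy x') : x = x' := Subtype.ext h

end Poly

section Ext

variable {k : Type} [CommRing k] {τ : Type} {w : τ → ℤ}

/-- linear maps out of the homogeneous part are determined by the monomials -/
theorem whs_ext {i : ℤ} {N : Type} [AddCommGroup N] [Module k N]
    {f g : weightedHomogeneousSubmodule k w i →ₗ[k] N}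
    (h : ∀ (α : τ →₀ ℕ) (hα : Finsupp.weight w α = i),
      f ⟨monomial α 1, isWeightedHomogeneous_monomial w α 1 hα⟩ =
        g ⟨monomial α 1, isWeightedHomogeneous_monomial w α 1 hα⟩) : f = g := by
  ext ⟨x, hx⟩
  have h1 : ∀ (s : Finset (τ →₀ ℕ)) (c : (τ →₀ ℕ) → k),
      (hs : ∀ α ∈ s, c α ≠ 0 → Finsupp.weight w α = i) →
      ∀ hm : ∑ α ∈ s, monomial α (c α) ∈ weightedHomogeneousSubmodule k w i,
        f ⟨_, hm⟩ = g ⟨_, hm⟩ := by
    classical
    intro s c
    induction s using Finset.induction_on with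
    | empty =>
      intro hs hm
      have h2 : (⟨_, hm⟩ : weightedHomogeneousSubmodule k w i) = 0 := Subtype.ext (by simp)
      rw [h2, map_zero, map_zero]
    | insert a s ha ih =>
      intro hs hm
      have h3 : ∀ α ∈ s, c α ≠ 0 → Finsupp.weight w α = i := fun α hα =>
        hs α (Finset.mem_insert_of_mem hα)
      have h4 : ∑ α ∈ s, monomial α (c α) ∈ weightedHomogeneousSubmodule k w i := by
        refine Submodule.sum_mem _ fun α hα => ?_
        by_cases h5 : c α = 0
        · rw [h5, map_zero]; exact Submodule.zero_mem _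
        · exact isWeightedHomogeneous_monomial w α _ (h3 α hα h5)
      by_cases h5 : c a = 0
      · have h6 : (⟨_, hm⟩ : weightedHomogeneousSubmodule k w i) = ⟨_, h4⟩ :=
          Subtype.ext (by
            change ∑ α ∈ insert a s, monomial α (c α) = ∑ α ∈ s, monomial α (c α)
            rw [Finset.sum_insert ha, h5, map_zero, zero_add])
        rw [h6]
        exact ih h3 h4
      · have ha' := hs a (Finset.mem_insert_self a s) h5
        have h6 : (⟨_, hm⟩ : weightedHomogeneousSubmodule k w i) =
            c a • ⟨monomial a 1, isWeightedHomogeneous_monomial w a 1 ha'⟩ + ⟨_, h4⟩ :=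
          Subtype.ext (by
            change ∑ α ∈ insert a s, monomial α (c α) =
              c a • monomial a 1 + ∑ α ∈ s, monomial α (c α)
            rw [Finset.sum_insert ha, smul_monomial, smul_eq_mul, mul_one])
        rw [h6, map_add, map_add, map_smul, map_smul, h a ha', ih h3 h4]
  have h2 := h1 x.support (fun α => x.coeff α) (fun α _ hα => hx hα)
    (by rw [← x.as_sum]; exact hx)
  have h3 : (⟨x, hx⟩ : weightedHomogeneousSubmodule k w i) =
      ⟨∑ α ∈ x.support, monomial α (x.coeff α), by rw [← x.as_sum]; exact hx⟩ :=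
    Subtype.ext x.as_sum
  rw [h3]
  exact h2

end Ext

/-! ### the total space of a graded module -/

section Total

variable {k : Type} [CommRing k] (Q : GM k)

/-- the operator `Y_m` on the total space -/
def tact (m : ℕ) : Module.End k (∀ i, Q.A i) where
  toFun x := fun j => Q.act m (i := j - ((m : ℤ) + 1)) (j := j) (by omega) (x (j - ((m : ℤ) + 1)))
  map_add' x y := by
    funext j
    simp only [Pi.add_apply, map_add]
  map_smul' c x := by
    funext j
    simp only [Pi.smul_apply, map_smul, RingHom.id_apply]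

theorem tact_apply (m : ℕ) (x : ∀ i, Q.A i) {i j : ℤ} (h : i + ((m : ℤ) + 1) = j) :
    Q.tact m x j = Q.act m h (x i) := by
  obtain rfl : i = j - ((m : ℤ) + 1) := by omega
  rfl

theorem tact_comm (m n : ℕ) : Q.tact m * Q.tact n = Q.tact n * Q.tact m := by
  ext x j
  change Q.tact m (Q.tact n x) j = Q.tact n (Q.tact m x) j
  rw [Q.tact_apply m _ (i := j - ((m : ℤ) + 1)) (by omega),
    Q.tact_apply n _ (i := j - ((m : ℤ) + 1) - ((n : ℤ) + 1)) (by omega),
    Q.tact_apply n _ (i := j - ((n : ℤ) + 1)) (by omega),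
    Q.tact_apply m _ (i := j - ((m : ℤ) + 1) - ((n : ℤ) + 1)) (by omega)]
  exact Q.comm n m _ _ _ _ _

theorem tact_range_comm : ∀ a ∈ Set.range Q.tact, ∀ b ∈ Set.range Q.tact, a * b = b * a := by
  rintro _ ⟨m, rfl⟩ _ ⟨n, rfl⟩
  exact Q.tact_comm m n

/-- the total space as a module over `k[Y]` -/
noncomputable def tal (ι : Type) (j : ι → ℕ) : MvPolynomial ι k →ₐ[k] Module.End k (∀ i, Q.A i) :=
  letI : CommRing (Algebra.adjoin k (Set.range Q.tact)) :=
    { (inferInstance : Ring (Algebra.adjoin k (Set.range Q.tact))) with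
      mul_comm := (Algebra.isMulCommutative_adjoin k Q.tact_range_comm).is_comm.comm }
  (Algebra.adjoin k (Set.range Q.tact)).val.comp
    (aeval (R := k) fun m : ι =>
      (⟨Q.tact (j m), Algebra.subset_adjoin ⟨j m, rfl⟩⟩ : Algebra.adjoin k (Set.range Q.tact)))

theorem tal_X (ι : Type) (j : ι → ℕ) (m : ι) : Q.tal ι j (X m) = Q.tact (j m) := by
  unfold tal
  let : CommRing (Algebra.adjoin k (Set.range Q.tact)) :=
    { (inferInstance : Ring (Algebra.adjoin k (Set.range Q.tact))) with
      mul_comm := (Algebra.isMulCommutative_adjoin k Q.tact_range_comm).is_comm.comm }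
  rw [AlgHom.comp_apply, aeval_X]
  rfl

end Total

/-! ### projectivity -/

section Proj

variable {k : Type} [CommRing k] {τ : Type} {w : τ → ℤ} {y : ℕ → MvPolynomial τ k}
  {hy : ∀ m, IsWeightedHomogeneous w (y m) ((m : ℤ) + 1)}

/-- A polynomial ring is projective over the `Y_m`, `m ∈ P`, if these act as distinct
variables. -/
theorem ofPoly_proj (P : Set ℕ) (j : P → τ) (hj : Function.Injective j)
    (hw : ∀ m : P, w (j m) = ((m : ℕ) : ℤ) + 1) (hyj : ∀ m : P, y m = X (j m)) :
    Proj P (ofPoly w y hy) := by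
  classical
  intro Q π hπ
  have hg : ∀ γ : τ →₀ ℕ, ∃ g : ∀ i, Q.A i, ∀ (i : ℤ), Finsupp.weight w γ = i →
      pval w y hy (π.f i (g i)) = monomial γ 1 := by
    intro γ
    obtain ⟨e, he⟩ := hπ _ (pmk w y hy (monomial γ 1) (isWeightedHomogeneous_monomial w γ 1 rfl))
    refine ⟨Pi.single _ e, fun i hi => ?_⟩
    subst hi
    rw [Pi.single_eq_same, he, pval_pmk]
  choose g hg using hg
  obtain ⟨S, hS⟩ : ∃ S : MvPolynomial τ k →ₗ[k] (∀ i, Q.A i), ∀ α : τ →₀ ℕ,
      S (monomial α 1) = Q.tal P (fun m => (m : ℕ)) (monomial (α.comapDomain j hj.injOn) 1)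
        (g (α.filter fun a => a ∉ Set.range j)) := by
    refine ⟨(basisMonomials τ k).constr k fun α =>
      Q.tal P (fun m => (m : ℕ)) (monomial (α.comapDomain j hj.injOn) 1)
        (g (α.filter fun a => a ∉ Set.range j)), fun α => ?_⟩
    have h := (basisMonomials τ k).constr_basis k (fun α =>
      Q.tal P (fun m => (m : ℕ)) (monomial (α.comapDomain j hj.injOn) 1)
        (g (α.filter fun a => a ∉ Set.range j))) α
    rwa [coe_basisMonomials] at h
  have hcomap : ∀ (m : P) (α : τ →₀ ℕ), (Finsupp.single (j m) 1 + α).comapDomain j hj.injOn =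
      Finsupp.single m 1 + α.comapDomain j hj.injOn := by
    intro m α
    ext m'
    simp only [Finsupp.comapDomain_apply, Finsupp.add_apply, Finsupp.single_apply, hj.eq_iff]
  have hfilter : ∀ (m : P) (α : τ →₀ ℕ),
      (Finsupp.single (j m) 1 + α).filter (fun a => a ∉ Set.range j) =
        α.filter (fun a => a ∉ Set.range j) := by
    intro m α
    rw [Finsupp.filter_add, Finsupp.filter_single_of_neg, zero_add]
    simp
  have hstep : ∀ (m : P) (f : MvPolynomial τ k), S (X (j m) * f) = Q.tact m (S f) := by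
    intro m f
    have h2 : S ∘ₗ LinearMap.mulLeft k (X (j m)) = Q.tact m ∘ₗ S := by
      refine (basisMonomials τ k).ext fun α => ?_
      rw [coe_basisMonomials]
      change S (X (j m) * monomial α 1) = Q.tact m (S (monomial α 1))
      have h3 : (X (j m) * monomial α 1 : MvPolynomial τ k) =
          monomial (Finsupp.single (j m) 1 + α) 1 := by
        rw [X, monomial_mul, one_mul]
      rw [h3, hS, hS, hcomap, hfilter]
      have h4 : (monomial (Finsupp.single m 1 + α.comapDomain j hj.injOn) 1 : MvPolynomial P k) =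
          X m * monomial (α.comapDomain j hj.injOn) 1 := by
        rw [X, monomial_mul, one_mul]
      rw [h4, map_mul, tal_X]
      rfl
    exact LinearMap.congr_fun h2 f
  have h1 : ∀ (m : P) (δ : τ →₀ ℕ), (∀ (i : ℤ), Finsupp.weight w δ = i →
      pval w y hy (π.f i (S (monomial δ 1) i)) = monomial δ 1) →
      ∀ (i : ℤ), Finsupp.weight w (Finsupp.single (j m) 1 + δ) = i →
      pval w y hy (π.f i (S (monomial (Finsupp.single (j m) 1 + δ) 1) i)) =
        monomial (Finsupp.single (j m) 1 + δ) 1 := by
    intro m δ hδ i hi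
    have h3 : (monomial (Finsupp.single (j m) 1 + δ) 1 : MvPolynomial τ k) =
        X (j m) * monomial δ 1 := by
      rw [X, monomial_mul, one_mul]
    have h4 : Finsupp.weight w δ + (((m : ℕ) : ℤ) + 1) = i := by
      rw [← hi, map_add, Finsupp.weight_single, one_smul, hw, add_comm]
    rw [h3, hstep, Q.tact_apply _ _ h4, π.comm _ m.2, pval_act, hδ _ rfl, hyj]
  have hmono : ∀ (β : P →₀ ℕ) (γ : τ →₀ ℕ), (γ.filter (fun a => a ∉ Set.range j) = γ) →
      ∀ (i : ℤ), Finsupp.weight w (β.mapDomain j + γ) = i →
        pval w y hy (π.f i (S (monomial (β.mapDomain j + γ) 1) i)) =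
          monomial (β.mapDomain j + γ) 1 := by
    intro β γ hγ
    induction β using Finsupp.induction with
    | zero =>
      have hγ0 : γ.comapDomain j hj.injOn = 0 := by
        ext m
        rw [Finsupp.comapDomain_apply, ← hγ, Finsupp.filter_apply_neg, Finsupp.zero_apply]
        simp
      intro i hi
      rw [Finsupp.mapDomain_zero, zero_add] at hi ⊢
      rw [hS, hγ0, hγ]
      have h3 : (monomial 0 1 : MvPolynomial P k) = 1 := rfl
      rw [h3, map_one]
      exact hg γ i hi
    | single_add m c f _ _ ih =>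
      clear * - ih h1
      induction c with
      | zero => simpa using ih
      | succ c ih2 =>
        have h2 : (Finsupp.single m (c + 1) + f).mapDomain j + γ =
            Finsupp.single (j m) 1 + ((Finsupp.single m c + f).mapDomain j + γ) := by
          rw [Finsupp.mapDomain_add, Finsupp.mapDomain_add, Finsupp.mapDomain_single,
            Finsupp.mapDomain_single, add_comm c 1, Finsupp.single_add]
          abel
        rw [h2]
        exact h1 m _ ih2
  refine ⟨⟨fun i => (LinearMap.proj i) ∘ₗ S ∘ₗ pval w y hy, ?_⟩, ?_⟩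
  · intro m hm i i' h x
    change S (pval w y hy ((ofPoly w y hy).act m h x)) i' = Q.act m h (S (pval w y hy x) i)
    have h2 := hstep ⟨m, hm⟩ (pval w y hy x)
    have h3 := hyj ⟨m, hm⟩
    change y m = _ at h3
    rw [pval_act, h3, h2, Q.tact_apply _ _ h]
  · intro i x
    change π.f i (S (pval w y hy x) i) = x
    have h2 : (π.f i) ∘ₗ (LinearMap.proj i : (∀ i, Q.A i) →ₗ[k] Q.A i) ∘ₗ S ∘ₗ
        (weightedHomogeneousSubmodule k w i).subtype =
          (LinearMap.id : weightedHomogeneousSubmodule k w i →ₗ[k]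
            weightedHomogeneousSubmodule k w i) := by
      refine whs_ext fun α hα => pval_inj ?_
      have h3 : (α.comapDomain j hj.injOn).mapDomain j + α.filter (fun a => a ∉ Set.range j) =
          α := by
        ext a
        by_cases ha : a ∈ Set.range j
        · obtain ⟨m, rfl⟩ := ha
          rw [Finsupp.add_apply, Finsupp.mapDomain_apply hj, Finsupp.comapDomain_apply,
            Finsupp.filter_apply, if_neg (by simp), add_zero]
        · rw [Finsupp.add_apply, Finsupp.mapDomain_of_notMem_range _ _ ha,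
            Finsupp.filter_apply, if_pos ha, zero_add]
      have h4 := hmono (α.comapDomain j hj.injOn) (α.filter (fun a => a ∉ Set.range j)) (by
        ext a
        simp only [Finsupp.filter_apply]
        split_ifs <;> rfl) i
        (by rw [h3]; exact hα)
      rw [h3] at h4
      exact h4
    exact LinearMap.congr_fun h2 x

end Proj

/-! ### the ring `k[Y_0, Y_1, …]` -/

/-- the ring `k[Y_0, Y_1, …]` as a module over itself -/
noncomputable def Lg (k : Type) [CommRing k] : GM k :=
  ofPoly (fun m : ℕ => (m : ℤ) + 1) X fun m => isWeightedHomogeneous_X k _ m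

theorem Lg_proj (k : Type) [CommRing k] (P : Set ℕ) : Proj P (Lg k) :=
  ofPoly_proj P (fun m => (m : ℕ)) Subtype.val_injective (fun _ => rfl) fun _ => rfl

/-! ### isomorphisms -/

theorem Proj.of_equiv {k : Type} [CommRing k] {P : Set ℕ} {M N : GM k} (h : Proj P M)
    (f : Lin P M N) (g : Lin P N M) (hfg : ∀ i x, f.f i (g.f i x) = x)
    (hgf : ∀ i x, g.f i (f.f i x) = x) : Proj P N := by
  intro Q π hπ
  obtain ⟨s, hs⟩ := h Q (π.comp g) (fun i x => by
    obtain ⟨z, hz⟩ := hπ i (f.f i x)
    exact ⟨z, by
      change g.f i (π.f i z) = x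
      rw [hz, hgf]⟩)
  refine ⟨g.comp s, fun i x => ?_⟩
  have h1 := hs i (g.f i x)
  change g.f i (π.f i (s.f i (g.f i x))) = g.f i x at h1
  change π.f i (s.f i (g.f i x)) = x
  rw [← hfg i (π.f i _), h1, hfg]

end GM

end Vale.Agent.P221
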