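import Vale.Agent.P221.H521.Ops

/-!
# P221 (A2): from the leading term claim (A1) to surjectivity for the operators `ρ l`
-/

open MvPolynomial

namespace Vale.Agent.P221

namespace H521

variable {p n : ℕ} {k : Type} [CommRing k]

lemma one_le_wV' (hp : 2 ≤ p) (a : Fin n) : 1 ≤ wV p n a := by
  unfold wV
  have h1 : (2 : ℤ) ≤ (p : ℤ) := by exact_mod_cast hp
  have h2 : (2 : ℤ) ≤ (p : ℤ) ^ ((a : ℕ) + 1) := by
    calc (2 : ℤ) ≤ (p : ℤ) := h1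
      _ = (p : ℤ) ^ 1 := (pow_one _).symm
      _ ≤ (p : ℤ) ^ ((a : ℕ) + 1) := pow_le_pow_right₀ (by omega) (by omega)
  omega

lemma one_le_dq (hp : 2 ≤ p) (l : ℕ) : 1 ≤ dq p n l := by
  unfold dq
  have h1 : (2 : ℤ) ≤ (p : ℤ) := by exact_mod_cast hp
  have h2 : (2 : ℤ) ≤ (p : ℤ) ^ (n + 1 + l) := by
    calc (2 : ℤ) ≤ (p : ℤ) := h1
      _ = (p : ℤ) ^ 1 := (pow_one _).symm
      _ ≤ (p : ℤ) ^ (n + 1 + l) := pow_le_pow_right₀ (by omega) (by omega)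
  omega

lemma dT_nonneg (hp : 2 ≤ p) (E : ℕ →₀ ℕ) : 0 ≤ dT p E := by
  unfold dT
  rw [Finsupp.weight_apply, Finsupp.sum]
  refine Finset.sum_nonneg fun i _ => nsmul_nonneg ?_ _
  unfold wT
  have h1 : (1 : ℤ) ≤ (p : ℤ) := by exact_mod_cast (by omega : 1 ≤ p)
  have := one_le_pow₀ h1 (n := i + 1)
  omega

lemma degree_le_weight (hp : 2 ≤ p) (d : Fin n →₀ ℕ) :
    (d.degree : ℤ) ≤ Finsupp.weight (wV p n) d := by
  rw [Finsupp.weight_apply, Finsupp.sum, Finsupp.degree_apply]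
  push_cast
  refine Finset.sum_le_sum fun i _ => ?_
  rw [nsmul_eq_mul]
  have := one_le_wV' hp i
  nlinarith [Int.natCast_nonneg (d i)]

/-- a functional of degree `t` with values in `I^r` vanishes on monomials of small degree -/
lemma eq_zero_of_lt (hp : 2 ≤ p) {t : ℤ} {r : ℕ} {φ : Fnl n k} (h1 : IsDeg p t φ) (h2 : VI r φ)
    {E : ℕ →₀ ℕ} (h : t + dT p E < r) : φ E = 0 := by
  ext d
  rw [coeff_zero]
  by_contra hc
  have h3 := h1 E hc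
  have h4 : r ≤ d.degree := by
    by_contra h5
    exact hc (mem_Iv_pow_iff.1 (h2 E) d (by omega))
  have h6 := degree_le_weight (n := n) hp d
  rw [h3] at h6
  have h7 : (r : ℤ) ≤ (d.degree : ℤ) := by exact_mod_cast h4
  omega

lemma VI.opR {s : ℕ} {φ : Fnl n k} (h : VI s φ) (l : ℕ) : VI (s + 1) (Vale.Agent.P221.op (R p n k l) φ) := by
  intro E
  rw [op_R]
  refine Ideal.sum_mem _ fun a _ => ?_
  rw [mul_comm, pow_succ]
  exact Ideal.mul_mem_mul (h _) (Ideal.subset_span ⟨a, rfl⟩)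

/-- killed by the first `l` operators -/
def Kl (ρ : ℕ → MvPolynomial ℕ (MvPolynomial (Fin n) k)) (l : ℕ) (φ : Fnl n k) : Prop :=
  ∀ m < l, op (ρ m) φ = 0

variable {ρ : ℕ → MvPolynomial ℕ (MvPolynomial (Fin n) k)}

lemma Kl.mono {l l' : ℕ} (h : l' ≤ l) {φ : Fnl n k} (h1 : Kl ρ l φ) : Kl ρ l' φ :=
  fun m hm => h1 m (by omega)

lemma Kl.op {l : ℕ} {φ : Fnl n k} (h1 : Kl ρ l φ) (f : MvPolynomial ℕ (MvPolynomial (Fin n) k)) :
    Kl ρ l (Vale.Agent.P221.op f φ) := fun m hm => by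
  rw [op_comm, h1 m hm, op_phi_zero]

lemma Kl.sub {l : ℕ} {φ ψ : Fnl n k} (h1 : Kl ρ l φ) (h2 : Kl ρ l ψ) : Kl ρ l (φ - ψ) :=
  fun m hm => by rw [op_phi_sub, h1 m hm, h2 m hm, sub_zero]

lemma key (H : IsRho p n k ρ) {s l : ℕ} {φ : Fnl n k} (h1 : VI s φ) (h2 : Kl ρ l φ) :
    VI (s + 2) (op (ρ l) φ + op (R p n k l) φ) := by
  obtain ⟨h, hh⟩ := H.symb l
  have h3 := h1.op hh
  rw [op_fadd, op_fadd, op_fsum, add_comm 2 s] at h3
  have h4 : ∑ i ∈ Finset.range l, op (h i * ρ i) φ = 0 := by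
    refine Finset.sum_eq_zero fun i hi => ?_
    rw [op_mul, h2 i (Finset.mem_range.1 hi), op_phi_zero]
  rw [h4, add_zero] at h3
  exact h3

lemma R_kills (H : IsRho p n k ρ) {s l : ℕ} {φ : Fnl n k} (h1 : VI s φ) (h2 : Kl ρ l φ) :
    ∀ j < l, op (R p n k j) (cmp s φ) = 0 := by
  intro j hj
  have h3 := key H h1 (h2.mono hj.le)
  rw [h2 j hj, zero_add] at h3
  rw [← cmp_R]
  exact cmp_eq_zero (by omega) h3

def StA (p n : ℕ) (k : Type) [CommRing k] (ρ : ℕ → MvPolynomial ℕ (MvPolynomial (Fin n) k))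
    (l : ℕ) : Prop :=
  ∀ t : ℤ, 0 ≤ t → ∀ (s : ℕ) (θ : Fnl n k), IsDeg p t θ → (∀ E, (θ E).IsHomogeneous s) →
    (∀ j < l, op (R p n k j) θ = 0) → ∃ ψ : Fnl n k, IsDeg p t ψ ∧ VI (s + 1) (ψ - θ) ∧ Kl ρ l ψ

def StB (p n : ℕ) (k : Type) [CommRing k] (ρ : ℕ → MvPolynomial ℕ (MvPolynomial (Fin n) k))
    (l : ℕ) : Prop :=
  ∀ t : ℤ, 0 ≤ t → ∀ (s : ℕ) (φ : Fnl n k), IsDeg p (t + dq p n l) φ → VI (s + 1) φ → Kl ρ l φ →
    ∃ ψ : Fnl n k, IsDeg p t ψ ∧ VI s ψ ∧ Kl ρ l ψ ∧ op (ρ l) ψ = φ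

lemma step (H : IsRho p n k ρ) (A1 : SpecA1 p n k) {l : ℕ} (hA : StA p n k ρ l) {t : ℤ}
    (ht : 0 ≤ t) (s : ℕ) (φ : Fnl n k) (h1 : IsDeg p (t + dq p n l) φ) (h2 : VI (s + 1) φ)
    (h3 : Kl ρ l φ) :
    ∃ ψ : Fnl n k, IsDeg p t ψ ∧ VI s ψ ∧ Kl ρ l ψ ∧ VI (s + 2) (φ - op (ρ l) ψ) := by
  obtain ⟨θ, g1, g2, g3, g4⟩ := A1 t ht l (s + 1) (-cmp (s + 1) φ) (isDeg_neg (cmp_isDeg h1))
    (fun E => by
      have h := (homogeneousSubmodule (Fin n) k (s + 1)).neg_mem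
        ((mem_homogeneousSubmodule _ _).2 (cmp_hom (s + 1) φ E))
      exact (mem_homogeneousSubmodule _ _).1 h)
    (fun m hm => by rw [op_phi_neg, R_kills H h2 h3 m hm, neg_zero])
  rw [Nat.add_sub_cancel] at g2
  obtain ⟨ψ, f1, f2, f3⟩ := hA t ht s θ g1 g2 g3
  have hψ : VI s ψ := by
    have : ψ = θ + (ψ - θ) := by abel
    rw [this]
    exact (vi_of_hom g2).add (f2.mono (by omega))
  refine ⟨ψ, f1, hψ, f3, ?_⟩
  have e : φ - op (ρ l) ψ = (φ - cmp (s + 1) φ) + op (R p n k l) (ψ - θ)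
      - (op (ρ l) ψ + op (R p n k l) ψ) := by
    rw [op_phi_sub, g4]
    abel
  rw [e]
  exact ((sub_cmp h2).add (f2.opR l)).sub (key H hψ f3)

lemma stB_of_stA (hp : 2 ≤ p) (H : IsRho p n k ρ) (A1 : SpecA1 p n k) {l : ℕ}
    (hA : StA p n k ρ l) : StB p n k ρ l := by
  intro t ht s φ h1 h2 h3
  let P : ℕ → Type := fun i => {φ : Fnl n k // IsDeg p (t + dq p n l) φ ∧ VI (s + i + 1) φ ∧ Kl ρ l φ}
  have hstep : ∀ i (φ : P i), ∃ ψ : Fnl n k, IsDeg p t ψ ∧ VI (s + i) ψ ∧ Kl ρ l ψ ∧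
      VI (s + i + 2) (φ.1 - op (ρ l) ψ) := fun i φ =>
    step H A1 hA ht (s + i) φ.1 φ.2.1 φ.2.2.1 φ.2.2.2
  choose F hF1 hF2 hF3 hF4 using hstep
  let nxt : ∀ i, P i → P (i + 1) := fun i φ =>
    ⟨φ.1 - op (ρ l) (F i φ), isDeg_sub φ.2.1 (isDeg_op (H.hom l) (hF1 i φ)), hF4 i φ,
      φ.2.2.2.sub ((hF3 i φ).op _)⟩
  let sq : ∀ i, P i := fun i => Nat.rec (motive := P) ⟨φ, h1, h2, h3⟩ nxt i
  have sq0 : (sq 0).1 = φ := rfl
  have sqs : ∀ i, (sq (i + 1)).1 = (sq i).1 - op (ρ l) (F i (sq i)) := fun i => rfl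
  let ψi : ℕ → Fnl n k := fun i => F i (sq i)
  let N : (ℕ →₀ ℕ) → ℕ := fun E => (t + dT p E).toNat + 1
  let ψ : Fnl n k := fun E => ∑ i ∈ Finset.range (N E), ψi i E
  have hvan : ∀ i E, N E ≤ i → ψi i E = 0 := by
    intro i E hi
    refine eq_zero_of_lt hp (hF1 i (sq i)) (hF2 i (sq i)) ?_
    have : N E = (t + dT p E).toNat + 1 := rfl
    push_cast
    omega
  have hψ : ∀ M E, N E ≤ M → ψ E = ∑ i ∈ Finset.range M, ψi i E := by
    intro M E hM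
    refine Finset.sum_subset (fun i hi => ?_) fun i _ hi => hvan i E ?_
    · rw [Finset.mem_range] at hi ⊢
      omega
    · rw [Finset.mem_range] at hi
      omega
  have hop : ∀ (g : MvPolynomial ℕ (MvPolynomial (Fin n) k)) (E : ℕ →₀ ℕ) (M : ℕ),
      (∀ E' ∈ g.support, N (E + E') ≤ M) →
      op g ψ E = ∑ i ∈ Finset.range M, op g (ψi i) E := by
    intro g E M hM
    unfold op
    rw [Finset.sum_comm]
    refine Finset.sum_congr rfl fun E' hE' => ?_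
    rw [hψ M _ (hM E' hE'), Finset.mul_sum]
  have hbd : ∀ (g : MvPolynomial ℕ (MvPolynomial (Fin n) k)) (E : ℕ →₀ ℕ) (M0 : ℕ),
      ∃ M, M0 ≤ M ∧ ∀ E' ∈ g.support, N (E + E') ≤ M := by
    intro g E M0
    refine ⟨max M0 (g.support.sup fun E' => N (E + E')), le_max_left _ _, fun E' hE' => ?_⟩
    exact le_max_of_le_right (Finset.le_sup (f := fun E' => N (E + E')) hE')
  refine ⟨ψ, fun E => ?_, fun E => ?_, fun m hm => ?_, ?_⟩
  · rw [← mem_weightedHomogeneousSubmodule]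
    exact Submodule.sum_mem _ fun i _ => hF1 i (sq i) E
  · exact Ideal.sum_mem _ fun i _ => ((hF2 i (sq i)).mono (by omega)) E
  · funext E
    obtain ⟨M, -, hM⟩ := hbd (ρ m) E 0
    rw [hop _ _ M hM]
    refine Finset.sum_eq_zero fun i _ => ?_
    have := hF3 i (sq i) m hm
    exact congrFun this E
  · funext E
    obtain ⟨M, hM0, hM⟩ := hbd (ρ l) E ((t + dq p n l + dT p E).toNat + 1)
    rw [hop _ _ M hM]
    have h5 : ∀ M, ∑ i ∈ Finset.range M, op (ρ l) (ψi i) E = φ E - (sq M).1 E := by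
      intro M
      induction M with
      | zero => rw [sq0]; simp
      | succ M ih =>
        rw [Finset.sum_range_succ, ih, sqs, Pi.sub_apply]
        have : op (ρ l) (F M (sq M)) E = op (ρ l) (ψi M) E := rfl
        rw [this]
        ring
    rw [h5]
    have h6 : (sq M).1 E = 0 := by
      refine eq_zero_of_lt hp (sq M).2.1 (sq M).2.2.1 ?_
      push_cast
      omega
    rw [h6, sub_zero]

lemma stA_succ (H : IsRho p n k ρ) {l : ℕ} (hA : StA p n k ρ l) (hB : StB p n k ρ l) :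
    StA p n k ρ (l + 1) := by
  intro t ht s θ h1 h2 h3
  obtain ⟨ψ0, f1, f2, f3⟩ := hA t ht s θ h1 h2 fun j hj => h3 j (by omega)
  have hψ0 : VI s ψ0 := by
    have : ψ0 = θ + (ψ0 - θ) := by abel
    rw [this]
    exact (vi_of_hom h2).add (f2.mono (by omega))
  have hv : VI (s + 1 + 1) (op (ρ l) ψ0) := by
    have e : op (ρ l) ψ0 = (op (ρ l) ψ0 + op (R p n k l) ψ0) - op (R p n k l) (ψ0 - θ) := by
      rw [op_phi_sub, h3 l (by omega)]
      abel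
    rw [e]
    exact (key H hψ0 f3).sub (f2.opR l)
  obtain ⟨ψ1, g1, g2, g3, g4⟩ := hB t ht (s + 1) (op (ρ l) ψ0) (isDeg_op (H.hom l) f1) hv (f3.op _)
  refine ⟨ψ0 - ψ1, isDeg_sub f1 g1, ?_, fun m hm => ?_⟩
  · have e : ψ0 - ψ1 - θ = (ψ0 - θ) - ψ1 := by abel
    rw [e]
    exact f2.sub g2
  · rcases Nat.lt_succ_iff_lt_or_eq.1 hm with hm | hm
    · exact (f3.sub g3) m hm
    · rw [hm, op_phi_sub, g4, sub_self]

lemma stA_all (hp : 2 ≤ p) (H : IsRho p n k ρ) (A1 : SpecA1 p n k) (l : ℕ) : StA p n k ρ l := by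
  induction l with
  | zero =>
    intro t _ s θ h1 _ _
    refine ⟨θ, h1, fun E => ?_, fun m hm => absurd hm (Nat.not_lt_zero m)⟩
    rw [sub_self]
    exact Ideal.zero_mem _
  | succ l ih => exact stA_succ H ih (stB_of_stA hp H A1 ih)

end H521

open H521

/-- (A2) follows from (A1). -/
theorem specA2_of (p n : ℕ) (k : Type) [CommRing k] (hp : 2 ≤ p) (A1 : SpecA1 p n k) :
    SpecA2 p n k := by
  intro ρ H t ht l φ h1 h2
  have h3 : VI (0 + 1) φ := by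
    intro E
    rw [mem_Iv_pow_iff]
    intro d hd
    have hd0 : d = 0 := by
      rw [← Finsupp.degree_eq_zero_iff]
      omega
    by_contra hc
    have h4 := h1 E hc
    rw [hd0, map_zero] at h4
    have h5 := one_le_dq (n := n) hp l
    have h6 := dT_nonneg hp E
    omega
  obtain ⟨ψ, g1, -, g3, g4⟩ := stB_of_stA hp H A1 (stA_all hp H A1 l) t ht 0 φ h1 h3 h2
  exact ⟨ψ, g1, g3, g4⟩

end Vale.Agent.P221
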